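import Vale.Agent.P347.ProxDisint

/-! P347, piece C3a: `prox_invariant` is in `ProxDisint.lean`. -/
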